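import Vale.Agent.P011.H973.QuadPl
import Vale.Agent.P011.Hey.H63.Sk4

/-!
# Galois extensions of global function fields: the places above a place are conjugate, and almost
all places are unramified (every characteristic)
-/

namespace Vale.Agent.P011.H589.D

open Module
open Vale.Agent.P011.H738 Vale.Agent.P011.H271 Vale.Agent.P011.H973.PF

set_option linter.unusedSectionVars false

noncomputable section

/-! ### sums -/

section gen

variable {F : Type} [Field F]

theorem abv_sum_lt {ι : Type*} (v : Place F) (s : Finset ι) (f : ι → F) {c : ℝ} (hc : 0 < c)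
    (h : ∀ i ∈ s, v.abv (f i) < c) : v.abv (∑ i ∈ s, f i) < c := by
  classical
  induction s using Finset.induction_on with
  | empty => rwa [Finset.sum_empty, map_zero]
  | insert a s ha ih =>
    rw [Finset.sum_insert ha]
    exact abv_add_lt v (h a (Finset.mem_insert_self a s))
      (ih fun i hi => h i (Finset.mem_insert_of_mem hi))

theorem abv_sum_le {ι : Type*} (v : Place F) (s : Finset ι) (f : ι → F) {c : ℝ} (hc : 0 ≤ c)
    (h : ∀ i ∈ s, v.abv (f i) ≤ c) : v.abv (∑ i ∈ s, f i) ≤ c := by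
  classical
  induction s using Finset.induction_on with
  | empty => rwa [Finset.sum_empty, map_zero]
  | insert a s ha ih =>
    rw [Finset.sum_insert ha]
    exact abv_add_le v (h a (Finset.mem_insert_self a s))
      (ih fun i hi => h i (Finset.mem_insert_of_mem hi))

end gen

variable {k E : Type} [Field k] [Field E] [Algebra k E]

/-! ### the exponent -/

/-- the absolute value above is a power of the one below -/
theorem exists_exp {w : Place E} {v : Place k} (h : Av' w v) :
    ∃ c : ℝ, 0 < c ∧ ∀ x : k, w.abv (algebraMap k E x) = v.abv x ^ c := by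
  let a : AbsoluteValue k ℝ := w.abv.comp (algebraMap k E).injective
  have h2 : v.abv.IsEquiv a := by
    intro x y
    exact (h.le_iff x y).symm
  obtain ⟨c, hc, h⟩ := AbsoluteValue.isEquiv_iff_exists_rpow_eq.mp h2
  exact ⟨c, hc, fun x => (congrFun h x).symm⟩

theorem av_of_exp {w : Place E} {v : Place k} {c : ℝ} (hc : 0 < c)
    (h : ∀ x : k, w.abv (algebraMap k E x) = v.abv x ^ c) : Av' w v := by
  intro x
  rw [h]
  constructor
  · intro h1
    by_contra h2
    exact absurd (Real.one_lt_rpow (not_le.1 h2) hc) (not_lt.2 h1)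
  · intro h1
    exact Real.rpow_le_one (v.abv.nonneg x) h1 hc.le

/-! ### conjugates -/

theorem conjP_conjP [GFF E] (σ τ : E ≃ₐ[k] E) (w : Place E) :
    conjP σ (conjP τ w) = conjP (τ * σ) w := place_ext' fun _ => Iff.rfl

theorem conjP_one [GFF E] (w : Place E) : conjP (1 : E ≃ₐ[k] E) w = w := place_ext' fun _ => Iff.rfl

variable [GFF E]

theorem conjP_inj {σ : E ≃ₐ[k] E} {w w' : Place E} (h : conjP σ w = w') : w = conjP σ⁻¹ w' := by
  rw [← h, conjP_conjP, mul_inv_cancel, conjP_one]

variable [FiniteDimensional k E] [IsGalois k E]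

/-- **the places above a place are conjugate** -/
theorem exists_conj {w w' : Place E} {v : Place k} (h : Av' w v) (h' : Av' w' v) :
    ∃ σ : E ≃ₐ[k] E, w' = conjP σ w := by
  classical
  by_contra hcon
  push Not at hcon
  have hd : ∀ σ τ : E ≃ₐ[k] E, conjP σ w ≠ conjP τ w' := by
    intro σ τ he
    have h1 := conjP_inj he.symm
    rw [conjP_conjP] at h1
    exact hcon _ h1
  obtain ⟨y, hy⟩ := weakP (Finset.univ.image (fun σ : E ≃ₐ[k] E => conjP σ w) ∪
      Finset.univ.image (fun σ : E ≃ₐ[k] E => conjP σ w'))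
    (fun P => if ∃ τ : E ≃ₐ[k] E, P = conjP τ w' then (1 : E) else 0) one_pos
  have y1 : ∀ σ : E ≃ₐ[k] E, w.abv (σ y) < 1 := by
    intro σ
    have h1 := hy (conjP σ w) (Finset.mem_union_left _
      (Finset.mem_image_of_mem _ (Finset.mem_univ σ)))
    rw [if_neg (by rintro ⟨τ, hτ⟩; exact hd σ τ hτ), sub_zero] at h1
    exact h1
  have y2 : ∀ σ : E ≃ₐ[k] E, w'.abv (σ y) = 1 := by
    intro σ
    have h1 := hy (conjP σ w') (Finset.mem_union_right _
      (Finset.mem_image_of_mem _ (Finset.mem_univ σ)))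
    rw [if_pos ⟨σ, rfl⟩] at h1
    have h2 := abv_eq_of_sub_lt (conjP σ w') (x := y) (y := 1) (by rwa [map_one])
    rwa [map_one] at h2
  have hN := Algebra.norm_eq_prod_automorphisms k y
  have h3 : w.abv (algebraMap k E (Algebra.norm k y)) < 1 := by
    rw [hN, map_prod]
    rw [← Finset.mul_prod_erase Finset.univ _ (Finset.mem_univ (1 : E ≃ₐ[k] E))]
    refine mul_lt_one_of_nonneg_of_lt_one_left (w.abv.nonneg _) (y1 1) ?_
    exact Finset.prod_le_one (fun σ _ => w.abv.nonneg _) fun σ _ => (y1 σ).le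
  have h4 : w'.abv (algebraMap k E (Algebra.norm k y)) = 1 := by
    rw [hN, map_prod]
    exact Finset.prod_eq_one fun σ _ => y2 σ
  rw [h.lt_one] at h3
  rw [h'.eq_one] at h4
  exact absurd h4 h3.ne

/-- **(D1)** -/
theorem conj_of_above {s : E ≃ₐ[k] E} {p : ℕ} (hs : ∀ t : E ≃ₐ[k] E, ∃ i, i < p ∧ t = s ^ i)
    {w w' : Place E} {v : Place k} (h : Av' w v) (h' : Av' w' v) :
    ∃ i, i < p ∧ ∀ x, w'.abv x = w.abv ((s ^ i) x) := by
  obtain ⟨σ, hσ⟩ := exists_conj h h'
  obtain ⟨i, hi, rfl⟩ := hs σ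
  exact ⟨i, hi, fun x => by rw [hσ]; rfl⟩

/-- **(D3)**, the residue fields -/
theorem qq_eq {w w' : Place E} {v : Place k} (h : Av' w v) (h' : Av' w' v) : qq w = qq w' := by
  obtain ⟨σ, rfl⟩ := exists_conj h h'
  exact (conjP_qq σ w).symm

/-- **(D3)**, one exponent for all places above `v` -/
theorem exists_exp_all (v : Place k) : ∃ c : ℝ, 0 < c ∧ ∀ w : Place E, Av' w v →
    ∀ x : k, w.abv (algebraMap k E x) = v.abv x ^ c := by
  obtain ⟨w0, hw0⟩ := exists_aboveF (E := E) v
  obtain ⟨c, hc, h⟩ := exists_exp hw0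
  refine ⟨c, hc, fun w hw x => ?_⟩
  obtain ⟨σ, rfl⟩ := exists_conj hw0 hw
  rw [conjP_abv, AlgEquiv.commutes, h]

/-- the places above a place are finite in number -/
theorem above_finite (v : Place k) : {w : Place E | Av' w v}.Finite := by
  obtain ⟨w0, hw0⟩ := exists_aboveF (E := E) v
  refine (Set.finite_range fun σ : E ≃ₐ[k] E => conjP σ w0).subset fun w hw => ?_
  obtain ⟨σ, hσ⟩ := exists_conj hw0 hw
  exact ⟨σ, hσ.symm⟩

/-! ### almost all places are unramified -/

/-- an element which is small at all conjugates has small coordinates -/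
theorem coord_lt {n : ℕ} (b : Basis (Fin n) k E) {w : Place E} {v : Place k} (h : Av' w v)
    (hb : ∀ (σ : E ≃ₐ[k] E) (j : Fin n), w.abv (σ (b j)) ≤ 1)
    (hD : v.abv (Algebra.discr k b) = 1) {x : E} (hx : ∀ σ : E ≃ₐ[k] E, w.abv (σ x) < 1)
    (i : Fin n) : v.abv (b.repr x i) < 1 := by
  classical
  -- traces of integral and of small elements
  have htr : ∀ y : E, (∀ σ : E ≃ₐ[k] E, w.abv (σ y) ≤ 1) → v.abv (Algebra.trace k E y) ≤ 1 := by
    intro y hy
    rw [← h, trace_eq_sum_automorphisms]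
    exact abv_sum_le w _ _ zero_le_one fun σ _ => hy σ
  have htr' : ∀ y : E, (∀ σ : E ≃ₐ[k] E, w.abv (σ y) < 1) → v.abv (Algebra.trace k E y) < 1 := by
    intro y hy
    rw [← h.lt_one, trace_eq_sum_automorphisms]
    exact abv_sum_lt w _ _ one_pos fun σ _ => hy σ
  set T : Matrix (Fin n) (Fin n) k := Algebra.traceMatrix k b with hT
  have hTij : ∀ i j, T i j = Algebra.trace k E (b i * b j) := fun i j => by
    rw [hT, Algebra.traceMatrix_apply, Algebra.traceForm_apply]
  have hTint : ∀ i j, v.abv (T i j) ≤ 1 := by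
    intro i j
    rw [hTij]
    refine htr _ fun σ => ?_
    rw [map_mul, map_mul]
    exact mul_le_one₀ (hb σ i) (w.abv.nonneg _) (hb σ j)
  -- the matrix over the ring of `v`
  let T' : Matrix (Fin n) (Fin n) (integers v.abv v.nonarch) := fun i j => ⟨T i j, hTint i j⟩
  have hT' : T = (integers v.abv v.nonarch).subtype.mapMatrix T' := rfl
  have hadj : ∀ i j, v.abv (T.adjugate i j) ≤ 1 := by
    intro i j
    rw [hT', ← RingHom.map_adjugate]
    exact (T'.adjugate i j).2
  have ht : ∀ j, v.abv (Algebra.trace k E (b j * x)) < 1 := by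
    intro j
    refine htr' _ fun σ => ?_
    rw [map_mul, map_mul]
    exact mul_lt_one_of_nonneg_of_lt_one_right (hb σ j) (w.abv.nonneg _) (hx σ)
  have h1 : T.mulVec (fun i => b.repr x i) = fun j => Algebra.trace k E (b j * x) := by
    funext j
    rw [Matrix.mulVec, dotProduct]
    conv_rhs => rw [← b.sum_repr x]
    rw [Finset.mul_sum, map_sum]
    refine Finset.sum_congr rfl fun l _ => ?_
    rw [hTij, mul_smul_comm, map_smul, smul_eq_mul, mul_comm]
  have h2 : T.det • (fun i => b.repr x i) =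
      T.adjugate.mulVec (fun j => Algebra.trace k E (b j * x)) := by
    rw [← h1, Matrix.mulVec_mulVec, Matrix.adjugate_mul, Matrix.smul_mulVec, Matrix.one_mulVec]
  have h3 := congrFun h2 i
  have h4 : v.abv (T.det * b.repr x i) < 1 := by
    have h5 : T.det * b.repr x i =
        T.adjugate.mulVec (fun j => Algebra.trace k E (b j * x)) i := h3
    rw [h5, Matrix.mulVec, dotProduct]
    refine abv_sum_lt v _ _ one_pos fun j _ => ?_
    rw [map_mul]
    exact mul_lt_one_of_nonneg_of_lt_one_right (hadj i j) (v.abv.nonneg _) (ht j)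
  have h5 : v.abv T.det = 1 := hD
  rwa [map_mul, h5, one_mul] at h4

/-- the criterion -/
theorem unram_of_basis {n : ℕ} (b : Basis (Fin n) k E) {w : Place E} {v : Place k} (h : Av' w v)
    (hb : ∀ (σ : E ≃ₐ[k] E) (j : Fin n), w.abv (σ (b j)) ≤ 1)
    (hD : v.abv (Algebra.discr k b) = 1) {x : k} (hx : x ≠ 0) :
    ml w (algebraMap k E x) = ml v x := by
  classical
  obtain ⟨e, he, hv⟩ := exists_ram h
  suffices e = 1 by rw [hv x hx, this, Nat.cast_one, one_mul]
  obtain ⟨t, ht0, ht⟩ := exists_ml w (-1)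
  have htw : w.abv t = (qq w : ℝ) ^ (-1 : ℤ) := by rw [ml_spec w ht0, ht]
  have hq : (qq w : ℝ) ^ (-1 : ℤ) < 1 := by
    rw [zpow_neg_one]
    exact inv_lt_one_of_one_lt₀ (one_lt_qq' w)
  have hq0 : (0 : ℝ) < (qq w : ℝ) ^ (-1 : ℤ) := zpow_pos (qq_pos w) _
  obtain ⟨y, hy⟩ := weakP (Finset.univ.image (fun σ : E ≃ₐ[k] E => conjP σ w))
    (fun P => if P = w then t else 0) hq0
  have y0 : w.abv y = (qq w : ℝ) ^ (-1 : ℤ) := by
    have h1 := hy w (by
      refine Finset.mem_image.2 ⟨1, Finset.mem_univ _, conjP_one w⟩)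
    rw [if_pos rfl] at h1
    rw [abv_eq_of_sub_lt w (x := y) (y := t) (by rwa [htw]), htw]
  have y1 : ∀ σ : E ≃ₐ[k] E, w.abv (σ y) < 1 := by
    intro σ
    have h1 := hy (conjP σ w) (Finset.mem_image_of_mem _ (Finset.mem_univ σ))
    by_cases hσ : conjP σ w = w
    · rw [← conjP_abv, hσ, y0]
      exact hq
    · rw [if_neg hσ, sub_zero] at h1
      exact h1.trans hq
  have hc := coord_lt b h hb hD y1
  -- so `y` is divisible by a uniformizer of `v`
  have hle : w.abv y ≤ (qq w : ℝ) ^ (-(e : ℤ)) := by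
    rw [← b.sum_repr y]
    refine abv_sum_le w _ _ (zpow_pos (qq_pos w) _).le fun j _ => ?_
    rw [Algebra.smul_def, map_mul]
    have hb1 := hb 1 j
    rw [AlgEquiv.one_apply] at hb1
    by_cases hc0 : b.repr y j = 0
    · rw [hc0, map_zero, map_zero, zero_mul]
      exact (zpow_pos (qq_pos w) _).le
    · have h1 : ml v (b.repr y j) < 0 := (ml_neg_iff v hc0).2 (hc j)
      have h2 : w.abv (algebraMap k E (b.repr y j)) ≤ (qq w : ℝ) ^ (-(e : ℤ)) := by
        rw [← ml_le_iff w ((map_ne_zero _).2 hc0), hv _ hc0]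
        have he' : (0 : ℤ) < e := by omega
        nlinarith
      calc _ ≤ (qq w : ℝ) ^ (-(e : ℤ)) * 1 :=
            mul_le_mul h2 hb1 (w.abv.nonneg _) (zpow_pos (qq_pos w) _).le
        _ = _ := mul_one _
  rw [y0, zpow_le_zpow_iff_right₀ (one_lt_qq' w)] at hle
  omega

/-- **(D2)**, first half: almost all places are unramified -/
theorem finite_ram [GFF k] : {v : Place k | ¬ ∀ w : Place E, Av' w v → ∀ x : Eˣ, ∃ y : kˣ,
    w.abv (x : E) = w.abv (algebraMap k E y)}.Finite := by
  classical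
  set b := Module.finBasis k E with hbdef
  have hD : Algebra.discr k b ≠ 0 := Algebra.discr_not_zero_of_basis k b
  -- the place below
  have hbel : ∀ w : Place E, ∃ v : Place k, Av' w v := by
    intro w
    obtain ⟨v, c, hc, h⟩ := Hey.H63.exists_below (k := k) w
    exact ⟨v, av_of_exp hc h⟩
  choose bel hbel using hbel
  have hfin : ((⋃ j, bel '' {w : Place E | w.abv (b j) ≠ 1}) ∪
      {v : Place k | v.abv (Algebra.discr k b) ≠ 1}).Finite :=
    (Set.finite_iUnion fun j => (place_finite (b.ne_zero j)).image _).union (place_finite hD)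
  refine hfin.subset fun v hv => ?_
  by_contra hcon
  apply hv
  simp only [Set.mem_union, Set.mem_iUnion, not_or, not_exists, Set.mem_ofPred_eq, not_not,
    Set.mem_image, not_and] at hcon
  obtain ⟨hcon1, hcon2⟩ := hcon
  intro w hw x
  have hb : ∀ (σ : E ≃ₐ[k] E) (j), w.abv (σ (b j)) ≤ 1 := by
    intro σ j
    have h1 : Av' (conjP σ w) v := (conjP_av σ w v).2 hw
    by_contra hne
    refine hcon1 j (conjP σ w) (fun h2 => hne ?_) ((hbel _).unique h1)
    rw [← conjP_abv, h2]
  obtain ⟨y, hy0, hy⟩ := exists_ml v (ml w (x : E))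
  refine ⟨Units.mk0 y hy0, ?_⟩
  rw [Units.val_mk0, ml_spec w x.ne_zero, ml_spec w ((map_ne_zero _).2 hy0),
    unram_of_basis b hw hb hcon2 hy0, hy]

omit [GFF E] in
/-- **(D2)**, second half: almost everywhere units are local norms -/
theorem finite_unit [GFF k] :
    {v : Place k | ¬ ∀ c : k, v.abv c = 1 → Hey.H63.LocN E c v}.Finite := by
  set pb := Field.powerBasisOfFiniteOfSeparable k E with hpb
  have hint : IsIntegral k pb.gen := Algebra.IsIntegral.isIntegral _
  refine (Hey.H63.finite_not_unr (P := minpoly k pb.gen) (minpoly.monic hint)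
    (minpoly.natDegree_pos hint) (Algebra.IsSeparable.isSeparable k pb.gen)).subset fun v hv => ?_
  intro hU
  apply hv
  obtain ⟨F, hFm, hF, hsep⟩ := hU
  intro c hc
  exact Hey.H63.loc_unram pb hFm hF hsep (d := 1) one_ne_zero (by rw [hc, map_one, one_pow])

/-- **(D2)** -/
theorem finite_bad [GFF k] : {v : Place k | ¬ ((∀ w : Place E, Av' w v → ∀ x : Eˣ, ∃ y : kˣ,
    w.abv (x : E) = w.abv (algebraMap k E y)) ∧
      ∀ c : k, v.abv c = 1 → Hey.H63.LocN E c v)}.Finite := by
  refine ((finite_ram (k := k) (E := E)).union (finite_unit (k := k) (E := E))).subset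
    fun v hv => ?_
  by_contra hcon
  simp only [Set.mem_union, Set.mem_ofPred_eq, not_or, not_not] at hcon
  exact hv hcon

end

end Vale.Agent.P011.H589.D
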